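import Vale.Agent.P033.Odd

open Polynomial Finset

namespace Vale.Agent.P033

section

variable {n u : ℕ} {f D : ℤ[X]} {L : Type*} [Field L]

/-- the point at which the row polynomial is evaluated for the subset `S` -/
noncomputable def pt (ζ : ℕ → L) (S : Finset ℕ) (t : L) : L :=
  (t * ∏ p ∈ S, ζ p) ^ ((-1 : ℤ) ^ S.card)

/-- the alternating product over all subsets of `P` -/
noncomputable def alt (f : ℤ[X]) (ζ : ℕ → L) (P : Finset ℕ) (t : L) : L :=
  ∏ S ∈ P.powerset, aeval (pt ζ S t) f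

theorem zpow_root {w : L} {k : ℕ} (hw : w ^ k = 1) (e : ℤ) : (w ^ e) ^ k = 1 := by
  rw [← zpow_natCast, ← zpow_mul, mul_comm, zpow_mul, zpow_natCast, hw, one_zpow]

theorem Row.zeta_pow (H : Row n u f D) {ζ : ℕ → L}
    (hζ : ∀ p ∈ u.primeFactors, IsPrimitiveRoot (ζ p) p) {p : ℕ} (hp : p ∈ u.primeFactors) :
    ζ p ^ n = 1 := by
  obtain ⟨c, hc⟩ := Nat.dvd_of_mem_primeFactors hp
  have : n = p * (4 * c * u) := by rw [H.hn, pow_two]; nth_rewrite 1 [hc]; ring
  rw [this, pow_mul, (hζ p hp).pow_eq_one, one_pow]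

theorem Row.base_pow (H : Row n u f D) {ζ : ℕ → L}
    (hζ : ∀ p ∈ u.primeFactors, IsPrimitiveRoot (ζ p) p) {S : Finset ℕ}
    (hS : S ⊆ u.primeFactors) {t : L} (ht : t ^ n = 1) : (t * ∏ p ∈ S, ζ p) ^ n = 1 := by
  rw [mul_pow, ht, one_mul, ← prod_pow]
  exact prod_eq_one fun p hp => H.zeta_pow hζ (hS hp)

theorem Row.pt_pow (H : Row n u f D) {ζ : ℕ → L}
    (hζ : ∀ p ∈ u.primeFactors, IsPrimitiveRoot (ζ p) p) {S : Finset ℕ}
    (hS : S ⊆ u.primeFactors) {t : L} (ht : t ^ n = 1) : pt ζ S t ^ n = 1 :=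
  zpow_root (H.base_pow hζ hS ht) _

theorem pt_insert (ζ : ℕ → L) {S : Finset ℕ} {p : ℕ} (hp : p ∉ S) (t : L) :
    pt ζ (insert p S) t = (pt ζ S t)⁻¹ * (ζ p) ^ (-(-1 : ℤ) ^ S.card) := by
  unfold pt
  rw [prod_insert hp, card_insert_of_notMem hp, pow_succ, mul_neg_one, ← zpow_neg, ← mul_zpow]
  congr 1
  ring

theorem pt_split (ζ : ℕ → L) (S : Finset ℕ) (t : L) :
    pt ζ S t = t ^ ((-1 : ℤ) ^ S.card) * pt ζ S 1 := by
  unfold pt
  rw [one_mul, mul_zpow]

theorem Row.base_ne_one (H : Row n u f D) {ζ : ℕ → L}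
    (hζ : ∀ p ∈ u.primeFactors, IsPrimitiveRoot (ζ p) p) {S : Finset ℕ}
    (hS : S ⊆ u.primeFactors) (hne : S.Nonempty) {t : L} (ht : t ^ 4 = 1) :
    t * ∏ p ∈ S, ζ p ≠ 1 := by
  obtain ⟨p, hp⟩ := hne
  intro h
  have hpp : p.Prime := Nat.prime_of_mem_primeFactors (hS hp)
  set e := ∏ q ∈ S.erase p, q with he
  have h1 : (t * ∏ q ∈ S, ζ q) ^ (4 * e) = ζ p ^ (4 * e) := by
    rw [mul_pow, pow_mul, ht, one_pow, one_mul, ← mul_prod_erase S ζ hp, mul_pow, ← prod_pow]
    have : ∏ q ∈ S.erase p, ζ q ^ (4 * e) = 1 := by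
      apply prod_eq_one
      intro q hq
      apply ((hζ q (hS (mem_of_mem_erase hq))).pow_eq_one_iff_dvd _).mpr
      exact Dvd.dvd.mul_left (dvd_prod_of_mem (fun q => q) hq) 4
    rw [this, mul_one]
  rw [h, one_pow] at h1
  have h2 : p ∣ 4 * e := ((hζ p (hS hp)).pow_eq_one_iff_dvd _).mp h1.symm
  rcases (Nat.Prime.dvd_mul hpp).mp h2 with h3 | h3
  · have h4 : p ∣ 2 := hpp.dvd_of_dvd_pow (show p ∣ 2 ^ 2 from h3)
    have h5 : p = 2 := (Nat.prime_dvd_prime_iff_eq hpp Nat.prime_two).mp h4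
    have h6 : 2 ∣ u := h5 ▸ Nat.dvd_of_mem_primeFactors (hS hp)
    exact (Nat.not_even_iff_odd.mpr H.hu) (even_iff_two_dvd.mpr h6)
  · obtain ⟨q, hq, hpq⟩ := (Prime.dvd_finsetProd_iff hpp.prime _).mp h3
    have hqp : q.Prime := Nat.prime_of_mem_primeFactors (hS (mem_of_mem_erase hq))
    have := (Nat.prime_dvd_prime_iff_eq hpp hqp).mp hpq
    exact (ne_of_mem_erase hq) this.symm

variable [CharZero L]

/-- at a place above an odd prime of `u` the normalised product is congruent to one -/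
theorem Row.alt_odd (H : Row n u f D) {ζ : ℕ → L}
    (hζ : ∀ p ∈ u.primeFactors, IsPrimitiveRoot (ζ p) p) (V : ValuationSubring L) {p : ℕ}
    (hp : p ∈ u.primeFactors) (hv : V.valuation (p : L) < 1) {t : L} (ht : t ^ n = 1) :
    V.valuation (alt f ζ u.primeFactors t / (n : L) ^ (u.primeFactors.erase p).powerset.card - 1)
      < 1 := by
  have hpp : p.Prime := Nat.prime_of_mem_primeFactors hp
  have h1 : alt f ζ u.primeFactors t / (n : L) ^ (u.primeFactors.erase p).powerset.card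
      = ∏ S ∈ (u.primeFactors.erase p).powerset,
        (aeval ((pt ζ S t)⁻¹ * (ζ p) ^ (-(-1 : ℤ) ^ S.card)) f / aeval (pt ζ S t)⁻¹ f) := by
    unfold alt
    conv_lhs => rw [← insert_erase hp, prod_powerset_insert (notMem_erase p _), erase_insert
      (notMem_erase p _)]
    rw [← prod_mul_distrib, ← prod_const, ← prod_div_distrib]
    apply prod_congr rfl
    intro S hS
    have hS' : S ⊆ u.primeFactors.erase p := mem_powerset.mp hS
    have hpS : p ∉ S := fun h => notMem_erase p _ (hS' h)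
    have hSu : S ⊆ u.primeFactors := hS'.trans (erase_subset _ _)
    have hw := H.pt_pow hζ hSu ht
    have hsp := spec H.n_ne H.hf hw
    rw [pt_insert ζ hpS, Int.cast_natCast] at *
    rw [← hsp]
    have h2 := H.eval_ne_zero hw
    have h3 := H.eval_ne_zero (w := (pt ζ S t)⁻¹) (by rw [inv_pow, hw, inv_one])
    field_simp
  rw [h1]
  apply one_prod
  intro S hS
  have hSu : S ⊆ u.primeFactors := (mem_powerset.mp hS).trans (erase_subset _ _)
  have hw := H.pt_pow hζ hSu ht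
  exact ratio V H.n_ne H.hf hpp hv (by rw [inv_pow, hw, inv_one])
    (zpow_root (hζ p hp).pow_eq_one _)

theorem Row.alt_ne_zero (H : Row n u f D) {ζ : ℕ → L}
    (hζ : ∀ p ∈ u.primeFactors, IsPrimitiveRoot (ζ p) p) {t : L} (ht : t ^ n = 1) :
    alt f ζ u.primeFactors t ≠ 0 :=
  prod_ne_zero_iff.mpr fun _ hS => H.eval_ne_zero (H.pt_pow hζ (mem_powerset.mp hS) ht)

theorem Row.rho_odd (H : Row n u f D) {ζ : ℕ → L}
    (hζ : ∀ p ∈ u.primeFactors, IsPrimitiveRoot (ζ p) p) (V : ValuationSubring L) {p : ℕ}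
    (hp : p ∈ u.primeFactors) (hv : V.valuation (p : L) < 1) {t : L} (ht : t ^ n = 1) :
    V.valuation (alt f ζ u.primeFactors t / alt f ζ u.primeFactors 1 - 1) < 1 := by
  have h := one_div_one _ (H.alt_odd hζ V hp hv ht) (H.alt_odd hζ V hp hv (one_pow n))
  have hn : (n : L) ^ (u.primeFactors.erase p).powerset.card ≠ 0 :=
    pow_ne_zero _ (by exact_mod_cast H.n_ne)
  rwa [div_div_div_cancel_right₀ hn] at h

theorem Row.rho_two (H : Row n u f D) {ζ : ℕ → L}
    (hζ : ∀ p ∈ u.primeFactors, IsPrimitiveRoot (ζ p) p) (V : ValuationSubring L)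
    (hv : V.valuation (2 : L) < 1) {t : L} (ht : t ^ 4 = 1) :
    V.valuation (alt f ζ u.primeFactors t / alt f ζ u.primeFactors 1 - 1) < 1 := by
  unfold alt
  rw [← prod_div_distrib]
  apply one_prod
  intro S hS
  rw [pt_split ζ S t]
  exact H.ratio_two V hv (zpow_root ht _) (H.pt_pow hζ (mem_powerset.mp hS) (one_pow n))

theorem Row.alt_val (H : Row n u f D) {ζ : ℕ → L}
    (hζ : ∀ p ∈ u.primeFactors, IsPrimitiveRoot (ζ p) p) (V : ValuationSubring L)
    (hu : V.valuation (u : L) = 1) {t : L} (ht : t ^ n = 1) :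
    V.valuation (alt f ζ u.primeFactors t)
      = V.valuation (2 : L) ^ u.primeFactors.powerset.card := by
  unfold alt
  rw [map_prod, ← prod_const]
  exact prod_congr rfl fun S hS => H.val_eq V hu (H.pt_pow hζ (mem_powerset.mp hS) ht)

omit [CharZero L] in
theorem val_u_of_primes (V : ValuationSubring L) {u : ℕ} (hu : u ≠ 0)
    (h : ∀ p ∈ u.primeFactors, ¬ V.valuation (p : L) < 1) : V.valuation (u : L) = 1 := by
  conv_lhs => rw [← Nat.prod_factorization_pow_eq_self hu]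
  rw [Finsupp.prod, Nat.cast_prod, map_prod]
  apply prod_eq_one
  intro p hp
  have : V.valuation (p : L) = 1 :=
    le_antisymm (val_nat_le _ _) (not_lt.mp (h p (by simpa using hp)))
  rw [Nat.cast_pow, map_pow, this, one_pow]

theorem Row.rho_integral (H : Row n u f D) {ζ : ℕ → L}
    (hζ : ∀ p ∈ u.primeFactors, IsPrimitiveRoot (ζ p) p) {t : L} (ht : t ^ n = 1) :
    IsIntegral ℤ (alt f ζ u.primeFactors t / alt f ζ u.primeFactors 1) := by
  apply isIntegral_of_forall_mem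
  intro V
  apply V.mem_of_valuation_le_one
  by_cases h : ∃ p ∈ u.primeFactors, V.valuation (p : L) < 1
  · obtain ⟨p, hp, hv⟩ := h
    exact (one_val _ (H.rho_odd hζ V hp hv ht)).le
  · have hu := val_u_of_primes V H.hu.pos.ne' (fun p hp hv => h ⟨p, hp, hv⟩)
    rw [map_div₀, H.alt_val hζ V hu ht, H.alt_val hζ V hu (one_pow n)]
    exact div_self_le_one _

end

section

variable {n u : ℕ} {f D : ℤ[X]} {L : Type*} [Field L] [NumberField L]

theorem Row.alt_const (H : Row n u f D) (hu1 : u ≠ 1) {ζ : ℕ → L}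
    (hζ : ∀ p ∈ u.primeFactors, IsPrimitiveRoot (ζ p) p) {t : L} (ht : t ^ 4 = 1) :
    alt f ζ u.primeFactors t = alt f ζ u.primeFactors 1 := by
  have htn := H.pow_n ht
  set ρ := alt f ζ u.primeFactors t / alt f ζ u.primeFactors 1 with hρ
  have hnorm : ∀ φ : L →+* ℂ, ‖φ ρ‖ = 1 := by
    intro φ
    have hs : ∀ s : L, s ^ n = 1 → ‖φ (alt f ζ u.primeFactors s)‖
        = Real.sqrt n ^ u.primeFactors.powerset.card := by
      intro s hs
      unfold alt
      rw [map_prod, norm_prod, ← prod_const]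
      exact prod_congr rfl fun S hS => H.norm_eval φ (H.pt_pow hζ (mem_powerset.mp hS) hs)
    rw [hρ, map_div₀, norm_div, hs t htn, hs 1 (one_pow n)]
    apply div_self
    apply pow_ne_zero
    have : (0 : ℝ) < n := by exact_mod_cast Nat.pos_of_ne_zero H.n_ne
    exact (Real.sqrt_pos.mpr this).ne'
  obtain ⟨m, hm0, hm⟩ := NumberField.Embeddings.pow_eq_one_of_norm_eq_one L ℂ
    (H.rho_integral hζ htn) hnorm
  obtain ⟨p, hpp, hpu⟩ := Nat.exists_prime_and_dvd hu1
  have hp : p ∈ u.primeFactors := Nat.mem_primeFactors.mpr ⟨hpp, hpu, H.hu.pos.ne'⟩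
  obtain ⟨V2, hV2⟩ := exists_val_lt_one (L := L) 2 one_lt_two
  obtain ⟨Vp, hVp⟩ := exists_val_lt_one (L := L) p hpp.one_lt
  obtain ⟨a, m', hm', rfl⟩ := Nat.exists_eq_two_pow_mul_odd hm0.ne'
  have h2 := H.rho_two hζ V2 (by simpa using hV2) ht
  have h3 := H.rho_odd hζ Vp hp hVp htn
  have h4 : ρ ^ (2 ^ a) = 1 :=
    eq_one_of_val V2.valuation (one_pow_one _ h2 _) (by rw [← pow_mul]; exact hm)
      (val_nat_eq_one _ hV2 (Nat.coprime_two_left.mpr hm'))
  have hcop : Nat.Coprime p (2 ^ a) :=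
    Nat.Coprime.pow_right a (Nat.coprime_two_right.mpr (H.hu.of_dvd_nat hpu))
  have h5 : ρ = 1 := eq_one_of_val Vp.valuation h3 h4 (val_nat_eq_one _ hVp hcop)
  rw [hρ, div_eq_one_iff_eq (H.alt_ne_zero hζ (one_pow n))] at h5
  exact h5

end

end Vale.Agent.P033
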