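import Vale.Agent.P033.Odd

open Polynomial Finset

namespace Vale.Agent.P033

section

variable {L : Type*} [Field L]

theorem val_two_pow_root (V : ValuationSubring L) (h2 : V.valuation (2 : L) < 1) (k : ℕ) :
    ∀ z : L, z ^ (2 ^ k) = 1 → V.valuation (z - 1) < 1 := by
  induction k with
  | zero => intro z hz; simp at hz; simp [hz]
  | succ k ih =>
    intro z hz
    have h1 := ih (z ^ 2) (by rw [← pow_mul, ← pow_succ', hz])
    have hz1 : V.valuation (z - 1) ≤ 1 :=
      V.valuation.map_sub_le (val_root _ (by positivity) hz).le (by simp)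
    have h3 : V.valuation (z - 1) ^ 2 < 1 := by
      have : (z - 1) ^ 2 = (z ^ 2 - 1) - 2 * (z - 1) := by ring
      rw [← map_pow, this]
      apply V.valuation.map_sub_lt h1
      rw [map_mul]
      exact mul_lt_one_of_lt_of_le h2 hz1
    exact (pow_lt_one_iff_of_nonneg zero_le (by norm_num)).mp h3

theorem val_two_le_pow (V : ValuationSubring L) (k : ℕ) :
    ∀ z : L, z ^ (2 ^ k) = -1 → V.valuation (2 : L) ≤ V.valuation (z - 1) ^ (2 ^ k) := by
  induction k with
  | zero =>
    intro z hz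
    simp only [pow_zero, pow_one] at hz ⊢
    have : z - 1 = -2 := by rw [hz]; ring
    rw [this, Valuation.map_neg]
  | succ k ih =>
    intro z hz
    have h1 := ih (z ^ 2) (by rw [← pow_mul, ← pow_succ', hz])
    have hz1 : V.valuation z = 1 :=
      val_root _ (n := 2 ^ (k + 1) * 2) (by positivity) (by rw [pow_mul, hz]; norm_num)
    have h2 : V.valuation (z + 1) ≤ V.valuation (z - 1) := by
      have h3 := geom_sum_mul z (2 ^ (k + 1) + 1)
      rw [pow_succ z, hz] at h3
      have h4 : z + 1 = -((∑ i ∈ range (2 ^ (k + 1) + 1), z ^ i) * (z - 1)) := by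
        rw [h3]; ring
      rw [h4, Valuation.map_neg, map_mul]
      apply mul_le_of_le_one_left'
      apply V.valuation.map_sum_le
      intro i _
      rw [map_pow, hz1, one_pow]
    refine h1.trans ?_
    have : z ^ 2 - 1 = (z - 1) * (z + 1) := by ring
    rw [this, map_mul, pow_succ' 2 k, pow_mul]
    apply pow_le_pow_left'
    rw [pow_two]
    exact mul_le_mul' le_rfl h2

variable [CharZero L]

theorem two_dvd_of_val (V : ValuationSubring L) (h2 : V.valuation (2 : L) < 1) {k : ℕ} {z : L}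
    (hz : z ^ (2 ^ k) = -1) (P : ℤ[X]) (hP : P.natDegree < 2 ^ k)
    (hv : V.valuation (aeval z P) ≤ V.valuation (2 : L)) (i : ℕ) : 2 ∣ P.coeff i := by
  classical
  set T := taylor 1 P with hT
  have hTd : T.natDegree < 2 ^ k := by rw [hT, natDegree_taylor]; exact hP
  have hπ1 : V.valuation (z - 1) < 1 :=
    val_two_pow_root V h2 (k + 1) z (by rw [pow_succ, pow_mul, hz]; norm_num)
  have hπ2 := val_two_le_pow V k z hz
  have hπ0 : 0 < V.valuation (z - 1) := by
    rw [zero_lt_iff]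
    intro h
    rw [h, zero_pow (by positivity)] at hπ2
    exact absurd hπ2 (not_le.mpr (val_two_pos V))
  have hev : aeval (z - 1) T = aeval z P := by
    rw [hT, taylor_apply, aeval_comp]
    simp
  have hall : ∀ j, 2 ∣ T.coeff j := by
    by_contra hne
    have hex : ∃ j, ¬ 2 ∣ T.coeff j := not_forall.mp hne
    set l := Nat.find hex with hl
    have hl1 : ¬ 2 ∣ T.coeff l := Nat.find_spec hex
    have hl2 : ∀ j < l, 2 ∣ T.coeff j := fun j hj => not_not.mp (Nat.find_min hex hj)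
    have hl3 : l ≤ T.natDegree := le_natDegree_of_ne_zero (fun h => hl1 (by rw [h]; simp))
    have hl4 : V.valuation ((T.coeff l : ℤ) : L) = 1 := by
      obtain ⟨c, hc⟩ : Odd (T.coeff l) := by
        rw [← Int.not_even_iff_odd, even_iff_two_dvd]; exact hl1
      rw [hc]
      push_cast
      rw [add_comm]
      apply V.valuation.map_one_add_of_lt
      rw [map_mul]
      exact mul_lt_one_of_lt_of_le h2 (val_int_le _ _)
    have hlt : V.valuation (2 : L) < V.valuation (z - 1) ^ l :=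
      hπ2.trans_lt (pow_lt_pow_right_of_lt_one₀ hπ0 hπ1 (by omega))
    have hsum := V.valuation.map_sum_eq_of_lt (s := range (T.natDegree + 1))
      (f := fun j => T.coeff j • (z - 1) ^ j) (j := l) (by simp; omega) (by
        intro j hj
        have hjl : j ≠ l := by simpa using (mem_sdiff.mp hj).2
        simp only [zsmul_eq_mul, map_mul, map_pow, hl4, one_mul]
        rcases lt_or_gt_of_ne hjl with h | h
        · obtain ⟨c, hc⟩ := hl2 j h
          rw [hc]
          push_cast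
          rw [map_mul, mul_assoc]
          refine lt_of_le_of_lt (mul_le_of_le_one_right' ?_) hlt
          exact mul_le_one' (val_int_le _ _) (pow_le_one' hπ1.le _)
        · exact lt_of_le_of_lt (mul_le_of_le_one_left' (val_int_le _ _))
            (pow_lt_pow_right_of_lt_one₀ hπ0 hπ1 h))
    rw [← aeval_eq_sum_range, hev] at hsum
    simp only [zsmul_eq_mul, map_mul, map_pow, hl4, one_mul] at hsum
    rw [hsum] at hv
    exact absurd hv (not_le.mpr hlt)
  obtain ⟨T', hT'⟩ := (C_dvd_iff_dvd_coeff 2 T).mpr hall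
  have hPT : P = C 2 * taylor (-1) T' := by
    have : taylor (-1) T = P := by rw [hT, taylor_taylor]; simp
    rw [← this, hT', taylor_mul, taylor_C]
  rw [hPT, coeff_C_mul]
  exact Dvd.intro _ rfl

end

/-- evaluation of a finite integer sequence -/
noncomputable def ev (c : ℕ → ℤ) (d : ℕ) (z : ℂ) : ℂ := ∑ k ∈ range d, (c k : ℂ) * z ^ k

/-- an odd sequence of length `2 ^ j` all of whose character sums have squared modulus `w` -/
def Good (j : ℕ) (w : ℤ) : Prop :=
  ∃ c : ℕ → ℤ, (∀ k < 2 ^ j, Odd (c k)) ∧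
    ∀ z : ℂ, z ^ (2 ^ j) = 1 → ev c (2 ^ j) z * ev c (2 ^ j) z⁻¹ = w

theorem even_of_ev (V : ValuationSubring ℂ) (h2 : V.valuation (2 : ℂ) < 1) {k : ℕ} {z : ℂ}
    (hz : z ^ (2 ^ k) = -1) (b : ℕ → ℤ)
    (hv : V.valuation (ev b (2 ^ k) z) ≤ V.valuation (2 : ℂ)) (i : ℕ) (hi : i < 2 ^ k) :
    2 ∣ b i := by
  have hd : (∑ j ∈ range (2 ^ k), monomial j (b j) : ℤ[X]).natDegree < 2 ^ k := by
    have : (∑ j ∈ range (2 ^ k), monomial j (b j) : ℤ[X]).natDegree ≤ 2 ^ k - 1 := by
      apply natDegree_sum_le_of_forall_le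
      intro j hj
      refine (natDegree_monomial_le _).trans ?_
      have := mem_range.mp hj
      omega
    have h0 : 0 < 2 ^ k := by positivity
    omega
  have := two_dvd_of_val V h2 hz _ hd (by
    simpa [ev, aeval_monomial] using hv) i
  simpa [coeff_monomial, hi] using this

theorem good_step {j : ℕ} {m : ℤ} (h : Good (j + 1) (16 * m)) : Good j (4 * m) := by
  obtain ⟨c, hodd, hc⟩ := h
  set d := 2 ^ j with hd
  have hd2 : 2 ^ (j + 1) = d + d := by rw [pow_succ]; omega
  have hd0 : d ≠ 0 := by positivity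
  rw [hd2] at hodd hc
  set b : ℕ → ℤ := fun k => (c k - c (d + k)) / 2 with hb
  have hb2 : ∀ k < d, c k = 2 * b k + c (d + k) := by
    intro k hk
    obtain ⟨x, hx⟩ := hodd k (by omega)
    obtain ⟨y, hy⟩ := hodd (d + k) (by omega)
    simp only [hb]
    omega
  have hneg : ∀ z : ℂ, z ^ d = -1 → ev c (d + d) z = 2 * ev b d z := by
    intro z hz
    unfold ev
    rw [sum_range_add, ← sum_add_distrib, mul_sum]
    apply sum_congr rfl
    intro k hk
    rw [hb2 k (mem_range.mp hk), pow_add, hz]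
    push_cast
    ring
  have hpos : ∀ z : ℂ, z ^ d = 1 → ev c (d + d) z = 2 * ev (fun k => b k + c (d + k)) d z := by
    intro z hz
    unfold ev
    rw [sum_range_add, ← sum_add_distrib, mul_sum]
    apply sum_congr rfl
    intro k hk
    rw [hb2 k (mem_range.mp hk), pow_add, hz]
    push_cast
    ring
  obtain ⟨V, hV⟩ := exists_val_lt_one (L := ℂ) 2 one_lt_two
  have hV2 : V.valuation (2 : ℂ) < 1 := by simpa using hV
  obtain ⟨z, hz⟩ := IsAlgClosed.exists_pow_nat_eq (-1 : ℂ) (Nat.pos_of_ne_zero hd0)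
  have hz' : z⁻¹ ^ d = -1 := by rw [inv_pow, hz]; norm_num
  have h1 := hc z (by rw [pow_add, hz]; norm_num)
  rw [hneg z hz, hneg _ hz'] at h1
  have h3 : ev b d z * ev b d z⁻¹ = 2 * 2 * (m : ℂ) := by
    push_cast at h1
    linear_combination (1 / 4 : ℂ) * h1
  have heven : ∀ i < d, 2 ∣ b i := by
    by_cases h4 : V.valuation (ev b d z) ≤ V.valuation (2 : ℂ)
    · exact even_of_ev V hV2 hz b h4
    · apply even_of_ev V hV2 hz' b
      by_contra h5
      have h6 := mul_lt_mul'' (not_le.mp h4) (not_le.mp h5) zero_le zero_le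
      rw [← map_mul, ← map_mul, h3, map_mul _ (2 * 2)] at h6
      exact absurd h6 (not_lt.mpr (mul_le_of_le_one_right' (val_int_le _ _)))
  refine ⟨fun k => b k + c (d + k), fun k hk => ?_, fun w hw => ?_⟩
  · exact Even.add_odd (even_iff_two_dvd.mpr (heven k hk)) (hodd _ (by omega))
  · have h7 := hc w (by rw [pow_add, hw]; norm_num)
    rw [hpos w hw, hpos w⁻¹ (by rw [inv_pow, hw, inv_one])] at h7
    push_cast at h7 ⊢
    linear_combination (1 / 4 : ℂ) * h7

theorem good_iter (i : ℕ) {j : ℕ} {m : ℤ} (h : Good (j + i) (4 ^ i * (4 * m))) :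
    Good j (4 * m) := by
  induction i with
  | zero => simpa using h
  | succ i ih =>
    apply ih
    have h1 : (4 : ℤ) ^ (i + 1) * (4 * m) = 16 * (4 ^ i * m) := by ring
    have h2 : (4 : ℤ) ^ i * (4 * m) = 4 * (4 ^ i * m) := by ring
    rw [h1] at h
    rw [h2]
    exact good_step h

theorem parseval (c : ℕ → ℤ) {d : ℕ} (hd : d ≠ 0) {w : ℤ}
    (h : ∀ z : ℂ, z ^ d = 1 → ev c d z * ev c d z⁻¹ = w) : ∑ k ∈ range d, c k ^ 2 = w := by
  obtain ⟨ω, hω⟩ : ∃ ω : ℂ, IsPrimitiveRoot ω d := ⟨_, Complex.isPrimitiveRoot_exp d hd⟩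
  have hω0 : ω ≠ 0 := hω.ne_zero hd
  have h1 : ∑ a ∈ range d, ev c d (ω ^ a) * ev c d (ω ^ a)⁻¹ = d * w := by
    rw [sum_congr rfl (fun a _ => h (ω ^ a) (by rw [← pow_mul, mul_comm, pow_mul, hω.pow_eq_one,
      one_pow]))]
    simp
  have h2 : ∑ a ∈ range d, ev c d (ω ^ a) * ev c d (ω ^ a)⁻¹
      = ∑ j ∈ range d, ∑ k ∈ range d, (c j : ℂ) * c k * ∑ a ∈ range d, (ω ^ j / ω ^ k) ^ a := by
    unfold ev
    simp only [sum_mul_sum]
    rw [sum_comm]
    apply sum_congr rfl
    intro j _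
    rw [sum_comm]
    apply sum_congr rfl
    intro k _
    rw [mul_sum]
    apply sum_congr rfl
    intro a _
    rw [div_pow, inv_pow, ← pow_mul, ← pow_mul, ← pow_mul, ← pow_mul, mul_comm a j, mul_comm a k]
    ring
  have h3 : ∀ j ∈ range d, ∑ k ∈ range d, (c j : ℂ) * c k * ∑ a ∈ range d, (ω ^ j / ω ^ k) ^ a
      = d * (c j : ℂ) ^ 2 := by
    intro j hj
    rw [sum_eq_single j]
    · rw [div_self (pow_ne_zero _ hω0)]
      simp
      ring
    · intro k hk hkj
      rw [geom_zero, mul_zero]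
      · rw [div_pow, ← pow_mul, ← pow_mul, mul_comm j, mul_comm k, pow_mul, pow_mul, hω.pow_eq_one]
        simp
      · intro h
        rw [div_eq_one_iff_eq (pow_ne_zero _ hω0)] at h
        exact hkj (hω.pow_inj (mem_range.mp hj) (mem_range.mp hk) h).symm
    · intro h; exact absurd hj h
  rw [h2, sum_congr rfl h3, ← mul_sum] at h1
  have hd' : (d : ℂ) ≠ 0 := by exact_mod_cast hd
  have h4 := mul_left_cancel₀ hd' h1
  exact_mod_cast h4

theorem not_good {j : ℕ} {m : ℤ} (hm : Odd m) : ¬ Good (j + 3) (4 * m) := by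
  rintro ⟨c, hodd, hc⟩
  have h1 := parseval c (by positivity) hc
  have h2 : (8 : ℤ) ∣ ∑ k ∈ range (2 ^ (j + 3)), (c k ^ 2 - 1) :=
    dvd_sum fun k hk => Int.eight_dvd_sq_sub_one_of_odd (hodd k (mem_range.mp hk))
  rw [sum_sub_distrib, h1] at h2
  simp only [sum_const, card_range, nsmul_eq_mul, mul_one] at h2
  push_cast at h2
  obtain ⟨x, hx⟩ := h2
  obtain ⟨y, hy⟩ := hm
  have : (2 : ℤ) ^ (j + 3) = 8 * 2 ^ j := by ring
  omega

theorem sum_odd_mod (g : ℕ → ℤ) (hg : ∀ i, Odd (g i)) (m : ℕ) :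
    (∑ i ∈ range m, g i) % 2 = (m : ℤ) % 2 := by
  induction m with
  | zero => simp
  | succ m ih =>
    rw [sum_range_succ]
    obtain ⟨x, hx⟩ := hg m
    push_cast
    omega

theorem ev_fold (h : ℕ → ℤ) (d m : ℕ) {z : ℂ} (hz : z ^ d = 1) :
    ev h (d * m) z = ev (fun k => ∑ i ∈ range m, h (d * i + k)) d z := by
  unfold ev
  induction m with
  | zero => simp
  | succ m ih =>
    rw [Nat.mul_succ, sum_range_add, ih, ← sum_add_distrib]
    apply sum_congr rfl
    intro k _
    beta_reduce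
    rw [sum_range_succ, pow_add, pow_mul, hz]
    push_cast
    ring

/-- Turyn's parity theorem: the order `4 u ^ 2` has `u` odd. -/
theorem odd_u (h : ℕ → ℤ) (hodd : ∀ j, Odd (h j)) {u : ℕ} (hu : u ≠ 0)
    (hs : ∀ z : ℂ, z ^ (4 * u ^ 2) = 1 →
      ev h (4 * u ^ 2) z * ev h (4 * u ^ 2) z⁻¹ = ((4 * u ^ 2 : ℕ) : ℤ)) : Odd u := by
  obtain ⟨a, m, hm, rfl⟩ := Nat.exists_eq_two_pow_mul_odd hu
  rcases a with _ | a
  · simpa using hm
  exfalso
  have hm2 : Odd ((m : ℤ) ^ 2) := by exact_mod_cast hm.pow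
  apply not_good (j := a) hm2
  apply good_iter (a + 1)
  have hn : 4 * (2 ^ (a + 1) * m) ^ 2 = 2 ^ (a + 3 + (a + 1)) * m ^ 2 := by ring
  rw [hn] at hs
  refine ⟨fun k => ∑ i ∈ range (m ^ 2), h (2 ^ (a + 3 + (a + 1)) * i + k), fun k _ => ?_,
    fun z hz => ?_⟩
  · rw [Int.odd_iff, sum_odd_mod _ (fun i => hodd _)]
    push_cast
    exact Int.odd_iff.mp hm2
  · rw [← ev_fold h _ _ hz, ← ev_fold h _ _ (by rw [inv_pow, hz, inv_one]),
      hs z (by rw [pow_mul, hz, one_pow])]
    push_cast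
    have : (4 : ℂ) ^ (a + 1) = 2 ^ (2 * (a + 1)) := by rw [pow_mul]; norm_num
    rw [this]
    ring

end Vale.Agent.P033
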