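import Vale.Agent.P033.OddMain
import Vale.Agent.P033.Even

open Polynomial Finset

namespace Vale.Agent.P033

theorem sum_range_zmod {M : Type*} [AddCommMonoid M] (n : ℕ) [NeZero n] (F : ZMod n → M) :
    ∑ j ∈ range n, F (j : ZMod n) = ∑ a, F a := by
  apply sum_nbij' (fun j : ℕ => (j : ZMod n)) (fun a => a.val)
  · intro a _; simp
  · intro a _; simpa using ZMod.val_lt a
  · intro a ha; exact ZMod.val_cast_of_lt (mem_range.mp ha)
  · intro a _; simp
  · intro a _; rfl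

/-- the row polynomial -/
noncomputable def rowPoly {n : ℕ} (s : ZMod n → ℤ) : ℤ[X] :=
  ∑ j ∈ range n, C (s (j : ZMod n)) * X ^ j

theorem aeval_rowPoly {R : Type*} [CommRing R] [Algebra ℤ R] {n : ℕ} (s : ZMod n → ℤ) (y : R) :
    aeval y (rowPoly s) = ∑ j ∈ range n, (s (j : ZMod n) : R) * y ^ j := by
  simp [rowPoly]

theorem corr_identity {R : Type*} [CommRing R] [Algebra ℤ R] {n : ℕ} [NeZero n] (s : ZMod n → ℤ)
    (hs : ∀ t, ∑ a, s a * s (a + t) = if t = 0 then (n : ℤ) else 0) (y : R) (hy : y ^ n = 1) :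
    aeval y (rowPoly s) * aeval (y ^ (n - 1)) (rowPoly s) = n := by
  set e := AddChar.zmodChar n hy with he
  have h1 : aeval y (rowPoly s) = ∑ a, (s a : R) * e a := by
    rw [aeval_rowPoly, ← sum_range_zmod]
    apply sum_congr rfl
    intro j _
    rw [he, AddChar.zmodChar_apply']
  have h2 : aeval (y ^ (n - 1)) (rowPoly s) = ∑ a, (s a : R) * e (-a) := by
    rw [aeval_rowPoly, ← sum_range_zmod]
    apply sum_congr rfl
    intro j _
    have : (-(j : ZMod n)) = (((n - 1) * j : ℕ) : ZMod n) := by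
      rw [Nat.cast_mul, Nat.cast_sub (Nat.pos_of_ne_zero (NeZero.ne n))]
      simp
    rw [this, he, AddChar.zmodChar_apply', pow_mul]
  rw [h1, h2, sum_mul_sum, sum_comm]
  have h3 : ∀ b : ZMod n, ∑ a, (s a : R) * e a * (s b * e (-b))
      = ∑ t, ((s b * s (b + t) : ℤ) : R) * e t := by
    intro b
    rw [← Equiv.sum_comp (Equiv.addLeft b)]
    apply sum_congr rfl
    intro t _
    have : e (b + t) * e (-b) = e t := by
      rw [← AddChar.map_add_eq_mul]; congr 1; ring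
    simp only [Equiv.coe_addLeft]
    push_cast
    rw [← this]
    ring
  rw [sum_congr rfl (fun b _ => h3 b), sum_comm]
  simp only [← sum_mul, ← Int.cast_sum, hs]
  rw [sum_eq_single 0]
  · simp
  · intro t _ ht; simp [ht]
  · intro h; exact absurd (mem_univ _) h

theorem rowPoly_dvd {n : ℕ} [NeZero n] (s : ZMod n → ℤ)
    (hs : ∀ t, ∑ a, s a * s (a + t) = if t = 0 then (n : ℤ) else 0) :
    (X ^ n - 1 : ℤ[X]) ∣ rowPoly s * (rowPoly s).comp (X ^ (n - 1)) - C (n : ℤ) := by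
  rw [← AdjoinRoot.mk_eq_zero, ← AdjoinRoot.aeval_eq]
  have hy : (AdjoinRoot.root (X ^ n - 1 : ℤ[X])) ^ n = 1 := by
    have := AdjoinRoot.mk_self (f := (X ^ n - 1 : ℤ[X]))
    rw [← AdjoinRoot.aeval_eq] at this
    simpa [sub_eq_zero] using this
  have := corr_identity s hs _ hy
  rw [map_sub, map_mul, aeval_comp, map_pow, aeval_X, this]
  simp

theorem order_of_signs {n : ℕ} [NeZero n] (s : ZMod n → ℤ) (h1 : ∀ a, s a = 1 ∨ s a = -1)
    (hs : ∀ t, ∑ a, s a * s (a + t) = if t = 0 then (n : ℤ) else 0) : n = 1 ∨ n = 4 := by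
  have hn0 : n ≠ 0 := NeZero.ne n
  by_cases hn1 : n = 1
  · exact Or.inl hn1
  right
  have hodd : ∀ a, Odd (s a) := fun a => by rcases h1 a with h | h <;> rw [h] <;> decide
  have hf := rowPoly_dvd s hs
  have hsq : (aeval (1 : ℤ) (rowPoly s)) ^ 2 = n := by
    have := corr_identity s hs (1 : ℤ) (one_pow n)
    rw [one_pow] at this
    rw [pow_two, this]
  have heven : (n : ℤ) % 2 = 0 := by
    have : Fact (1 < n) := ⟨by omega⟩
    have h2 := hs 1
    rw [if_neg one_ne_zero, ← sum_range_zmod] at h2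
    have h3 := sum_odd_mod (fun j => s (j : ZMod n) * s ((j : ZMod n) + 1))
      (fun j => (hodd _).mul (hodd _)) n
    rw [h2] at h3
    omega
  obtain ⟨c, hc⟩ : Even (aeval (1 : ℤ) (rowPoly s)) := by
    apply (Int.even_pow' (n := 2) (by norm_num)).mp
    rw [hsq, Int.even_iff]
    exact heven
  have hn : n = 4 * c.natAbs ^ 2 := by
    have : (n : ℤ) = 4 * (c.natAbs : ℤ) ^ 2 := by
      rw [← hsq, hc, Int.natAbs_sq]; ring
    exact_mod_cast this
  set u := c.natAbs with hu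
  have hu0 : u ≠ 0 := by
    intro h; rw [h] at hn; exact hn0 hn
  have huodd : Odd u := by
    apply odd_u (fun j => s (j : ZMod n)) (fun j => hodd _) hu0
    rw [← hn]
    intro z hz
    have := spec hn0 hf hz
    rw [aeval_rowPoly, aeval_rowPoly] at this
    exact this
  have H : Row n u (rowPoly s) (∑ j ∈ range n, C ((1 - s (j : ZMod n)) / 2) * X ^ j) := by
    refine ⟨hn, huodd, ?_, hf⟩
    rw [rowPoly, mul_sum, ← sum_sub_distrib]
    apply sum_congr rfl
    intro j _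
    rcases h1 (j : ZMod n) with h | h <;> rw [h]
    · simp
    · norm_num
      ring
  rw [hn, H.u_eq_one]
  norm_num

theorem order_of_matrix (n : ℕ) (hn : 1 ≤ n) (H : Matrix (Fin n) (Fin n) ℝ)
    (hsign : ∀ i j, H i j = 1 ∨ H i j = -1)
    (hH : H * H.transpose = (n : ℝ) • (1 : Matrix (Fin n) (Fin n) ℝ))
    (h : ℤ → ℝ) (hc : ∀ i j : Fin n, H i j = h ((((j : ℕ) : ℤ) - ((i : ℕ) : ℤ)) % (n : ℤ))) :
    n = 1 ∨ n = 4 := by
  classical
  have : NeZero n := ⟨by omega⟩
  let s : ZMod n → ℤ := fun a => if h (a.val : ℤ) = 1 then 1 else -1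
  have hs1 : ∀ a, s a = 1 ∨ s a = -1 := fun a => by
    simp only [s]; split_ifs <;> simp
  have hs2 : ∀ a : ZMod n, (s a : ℝ) = h (a.val : ℤ) := by
    intro a
    have h0 := hc ⟨0, by omega⟩ ⟨a.val, ZMod.val_lt a⟩
    have h1 : ((a.val : ℤ) - ((0 : ℕ) : ℤ)) % (n : ℤ) = a.val := by
      rw [Nat.cast_zero, sub_zero]
      exact Int.emod_eq_of_lt (by positivity) (by exact_mod_cast ZMod.val_lt a)
    simp only [h1] at h0
    have h2 := hsign ⟨0, by omega⟩ ⟨a.val, ZMod.val_lt a⟩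
    rw [h0] at h2
    simp only [s]
    split_ifs with h3
    · rw [h3]; simp
    · rw [h2.resolve_left h3]; simp
  have hs3 : ∀ i j : Fin n, H i j = s (((j : ℕ) : ZMod n) - ((i : ℕ) : ZMod n)) := by
    intro i j
    rw [hc, hs2, ← ZMod.val_intCast]
    push_cast
    rfl
  apply order_of_signs s hs1
  intro t
  have h0 := congrFun (congrFun hH ⟨0, by omega⟩) ⟨(-t).val, ZMod.val_lt _⟩
  simp only [Matrix.mul_apply, Matrix.transpose_apply, hs3, Nat.cast_zero, sub_zero,
    ZMod.natCast_val, ZMod.cast_id', id_eq, sub_neg_eq_add, Matrix.smul_apply, Matrix.one_apply,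
    smul_eq_mul, Fin.mk.injEq] at h0
  rw [Fin.sum_univ_eq_sum_range
    (fun j => ((s (j : ZMod n) : ℤ) : ℝ) * ((s ((j : ZMod n) + t) : ℤ) : ℝ)) n,
    sum_range_zmod n (fun a => ((s a : ℤ) : ℝ) * ((s (a + t) : ℤ) : ℝ))] at h0
  have h4 : (0 = (-t).val) ↔ t = 0 := by
    rw [eq_comm, ZMod.val_eq_zero, neg_eq_zero]
  simp only [h4] at h0
  split_ifs at h0 ⊢
  · rw [mul_one] at h0; exact_mod_cast h0
  · rw [mul_zero] at h0; exact_mod_cast h0

theorem circulant_hadamard_iff (n : ℕ) (hn : 1 ≤ n) :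
    (∃ H : Matrix (Fin n) (Fin n) ℝ,
      (∀ i j, H i j = 1 ∨ H i j = -1) ∧
      H * H.transpose = (n : ℝ) • (1 : Matrix (Fin n) (Fin n) ℝ) ∧
      ∃ h : ℤ → ℝ, ∀ i j : Fin n, H i j = h ((((j : ℕ) : ℤ) - ((i : ℕ) : ℤ)) % (n : ℤ))) ↔
    (n = 1 ∨ n = 4) := by
  constructor
  · rintro ⟨H, h1, h2, h, h3⟩
    exact order_of_matrix n hn H h1 h2 h h3
  · rintro (rfl | rfl)
    · refine ⟨1, fun i j => Or.inl ?_, by simp, fun _ => 1, fun i j => ?_⟩
      · fin_cases i; fin_cases j; simp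
      · fin_cases i; fin_cases j; simp
    · refine ⟨!![1, 1, 1, -1; -1, 1, 1, 1; 1, -1, 1, 1; 1, 1, -1, 1], ?_, ?_,
        fun k => if k = 3 then -1 else 1, ?_⟩
      · intro i j
        fin_cases i <;> fin_cases j <;> simp
      · ext i j
        fin_cases i <;> fin_cases j <;> simp [Matrix.mul_apply, Fin.sum_univ_four] <;> norm_num
      · intro i j
        fin_cases i <;> fin_cases j <;> simp

end Vale.Agent.P033
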