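import Vale.Agent.P033.Ratio

open Polynomial Finset

namespace Vale.Agent.P033

/-- Data of a circulant Hadamard row of order `n = 4 u ^ 2`, `u` odd, in polynomial form. -/
structure Row (n u : ℕ) (f D : ℤ[X]) : Prop where
  hn : n = 4 * u ^ 2
  hu : Odd u
  hD : f = ∑ j ∈ range n, X ^ j - 2 * D
  hf : (X ^ n - 1 : ℤ[X]) ∣ f * f.comp (X ^ (n - 1)) - C (n : ℤ)

section

variable {n u : ℕ} {f D : ℤ[X]}

theorem Row.n_ne (H : Row n u f D) : n ≠ 0 := by
  have := H.hu.pos
  rw [H.hn]; positivity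

variable {L : Type*} [Field L]

theorem geom_zero {w : L} (hw : w ^ n = 1) (h1 : w ≠ 1) : ∑ j ∈ range n, w ^ j = 0 := by
  have := geom_sum_mul w n
  rw [hw, sub_self] at this
  exact (mul_eq_zero.mp this).resolve_right (sub_ne_zero.mpr h1)

theorem Row.eval_eq (H : Row n u f D) (w : L) :
    aeval w f = ∑ j ∈ range n, w ^ j - 2 * aeval w D := by
  rw [H.hD]
  simp [map_ofNat]

theorem Row.eval_ne_one (H : Row n u f D) {w : L} (hw : w ^ n = 1) (h1 : w ≠ 1) :
    aeval w f = - 2 * aeval w D := by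
  rw [H.eval_eq, geom_zero hw h1]; ring

theorem val_aeval_le (V : ValuationSubring L) (g : ℤ[X]) {x : L} (hx : V.valuation x ≤ 1) :
    V.valuation (aeval x g) ≤ 1 := by
  rw [aeval_eq_sum_range]
  apply V.valuation.map_sum_le
  intro i _
  rw [zsmul_eq_mul, map_mul, map_pow]
  exact mul_le_one' (val_int_le _ _) (pow_le_one' hx _)

theorem val_aeval_sub_le (V : ValuationSubring L) (g : ℤ[X]) {x y : L} (hx : V.valuation x ≤ 1)
    (hy : V.valuation y ≤ 1) :
    V.valuation (aeval x g - aeval y g) ≤ V.valuation (x - y) := by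
  rw [aeval_eq_sum_range, aeval_eq_sum_range, ← sum_sub_distrib]
  apply V.valuation.map_sum_le
  intro i _
  rw [zsmul_eq_mul, zsmul_eq_mul, ← mul_sub, map_mul, ← Commute.geom_sum₂_mul (Commute.all x y),
    map_mul, ← mul_assoc]
  apply mul_le_of_le_one_left'
  apply mul_le_one' (val_int_le _ _)
  apply V.valuation.map_sum_le
  intro j _
  rw [map_mul, map_pow, map_pow]
  exact mul_le_one' (pow_le_one' hx _) (pow_le_one' hy _)

theorem Row.val_n (H : Row n u f D) (V : ValuationSubring L) :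
    V.valuation (n : L) = V.valuation (2 : L) ^ 2 * V.valuation (u : L) ^ 2 := by
  rw [H.hn, ← map_pow, ← map_pow, ← map_mul]
  congr 1
  push_cast
  ring

theorem Row.val_geom (H : Row n u f D) (V : ValuationSubring L) {w : L} (hw : w ^ n = 1) :
    V.valuation (∑ j ∈ range n, w ^ j) ≤ V.valuation (2 : L) ^ 2 := by
  by_cases h1 : w = 1
  · subst h1
    simp only [one_pow, sum_const, card_range, nsmul_eq_mul, mul_one]
    rw [H.val_n]
    exact mul_le_of_le_one_right' (pow_le_one' (val_nat_le _ _) _)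
  · rw [geom_zero hw h1]; simp

theorem val_two_le (V : ValuationSubring L) : V.valuation (2 : L) ≤ 1 := by
  simp

theorem Row.val_le (H : Row n u f D) (V : ValuationSubring L) {w : L} (hw : w ^ n = 1) :
    V.valuation (aeval w f) ≤ V.valuation (2 : L) := by
  rw [H.eval_eq]
  apply V.valuation.map_sub_le
  · refine (H.val_geom V hw).trans ?_
    rw [pow_two]
    exact mul_le_of_le_one_right' (val_two_le V)
  · rw [map_mul]
    exact mul_le_of_le_one_right' (val_aeval_le V D (val_root _ H.n_ne hw).le)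

variable [CharZero L]

theorem val_two_pos (V : ValuationSubring L) : 0 < V.valuation (2 : L) := by
  rw [zero_lt_iff]; simp

theorem Row.val_eq (H : Row n u f D) (V : ValuationSubring L) (hu : V.valuation (u : L) = 1)
    {w : L} (hw : w ^ n = 1) : V.valuation (aeval w f) = V.valuation (2 : L) := by
  have h1 := H.val_le V hw
  have h2 := H.val_le V (w := w⁻¹) (by rw [inv_pow, hw, inv_one])
  have h3 := congrArg V.valuation (spec H.n_ne H.hf hw)
  rw [map_mul, Int.cast_natCast, H.val_n, hu, one_pow, mul_one, pow_two] at h3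
  by_contra hne
  have h4 := mul_lt_mul_of_lt_of_le_of_nonneg_of_pos (lt_of_le_of_ne h1 hne) h2 zero_le
    (val_two_pos V)
  exact absurd h3 (ne_of_lt h4)

theorem Row.eval_ne_zero (H : Row n u f D) {w : L} (hw : w ^ n = 1) : aeval w f ≠ 0 := by
  intro h
  have h3 := spec H.n_ne H.hf hw
  rw [h, zero_mul] at h3
  have : (n : L) ≠ 0 := by exact_mod_cast H.n_ne
  exact this (by simpa using h3.symm)

omit [CharZero L] in
theorem Row.val_u (H : Row n u f D) (V : ValuationSubring L) (h2 : V.valuation (2 : L) < 1) :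
    V.valuation (u : L) = 1 :=
  val_nat_eq_one V.valuation (p := 2) (by simpa using h2) (Nat.coprime_two_left.mpr H.hu)

omit [CharZero L] in
theorem Row.pow_n (H : Row n u f D) {t : L} (ht : t ^ 4 = 1) : t ^ n = 1 := by
  rw [H.hn, pow_mul, ht, one_pow]

omit [CharZero L] in
theorem val_fourth (V : ValuationSubring L) (h2 : V.valuation (2 : L) < 1) {t : L}
    (ht : t ^ 4 = 1) : V.valuation (t - 1) < 1 := by
  have h1 : (t - 1) ^ 4 = 2 * aeval t (1 - 2 * X ^ 3 + 3 * X ^ 2 - 2 * X : ℤ[X]) := by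
    simp only [map_sub, map_add, map_mul, map_pow, aeval_X, map_one, map_ofNat]
    linear_combination ht
  have h3 : V.valuation (t - 1) ^ 4 < 1 := by
    rw [← map_pow, h1, map_mul]
    exact mul_lt_one_of_lt_of_le h2 (val_aeval_le V _ (val_root _ (by norm_num) ht).le)
  exact (pow_lt_one_iff_of_nonneg zero_le (by norm_num)).mp h3

/-- congruence at a place above two -/
theorem Row.ratio_two (H : Row n u f D) (V : ValuationSubring L) (h2 : V.valuation (2 : L) < 1)
    {t w : L} (ht : t ^ 4 = 1) (hw : w ^ n = 1) :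
    V.valuation (aeval (t * w) f / aeval w f - 1) < 1 := by
  apply one_div_of_lt
  have htw : (t * w) ^ n = 1 := by rw [mul_pow, H.pow_n ht, hw, one_mul]
  rw [H.val_eq V (H.val_u V h2) hw, H.eval_eq, H.eval_eq]
  have hsq : V.valuation (2 : L) ^ 2 < V.valuation (2 : L) := by
    rw [pow_two]
    exact mul_lt_of_lt_one_right (val_two_pos V) h2
  have : (∑ j ∈ range n, (t * w) ^ j - 2 * aeval (t * w) D) - (∑ j ∈ range n, w ^ j - 2 * aeval w D)
      = (∑ j ∈ range n, (t * w) ^ j - ∑ j ∈ range n, w ^ j)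
        - 2 * (aeval (t * w) D - aeval w D) := by ring
  rw [this]
  apply V.valuation.map_sub_lt
  · exact V.valuation.map_sub_lt ((H.val_geom V htw).trans_lt hsq) ((H.val_geom V hw).trans_lt hsq)
  · rw [map_mul]
    apply mul_lt_of_lt_one_right (val_two_pos V)
    refine (val_aeval_sub_le V D (val_root _ H.n_ne htw).le (val_root _ H.n_ne hw).le).trans_lt ?_
    have : t * w - w = (t - 1) * w := by ring
    rw [this, map_mul, val_root _ H.n_ne hw, mul_one]
    exact val_fourth V h2 ht

omit [CharZero L] in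
theorem Row.norm_eval (H : Row n u f D) (φ : L →+* ℂ) {w : L} (hw : w ^ n = 1) :
    ‖φ (aeval w f)‖ = Real.sqrt n := by
  have h1 : φ (aeval w f) = aeval (φ w) f :=
    (Polynomial.aeval_algHom_apply φ.toIntAlgHom w f).symm
  have hx : (φ w) ^ n = 1 := by rw [← map_pow, hw, map_one]
  have hnorm : ‖φ w‖ = 1 := Complex.norm_eq_one_of_pow_eq_one hx H.n_ne
  have h2 : (starRingEnd ℂ) (aeval (φ w) f) = aeval (φ w)⁻¹ f := by
    rw [Complex.inv_eq_conj hnorm]
    exact (Polynomial.aeval_algHom_apply (starRingEnd ℂ).toIntAlgHom (φ w) f).symm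
  have h3 := spec H.n_ne H.hf hx
  rw [← h2, Complex.mul_conj, Complex.normSq_eq_norm_sq] at h3
  rw [h1]
  have h4 : ‖aeval (φ w) f‖ ^ 2 = (n : ℝ) := by exact_mod_cast h3
  rw [← h4, Real.sqrt_sq (norm_nonneg _)]

end

end Vale.Agent.P033
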