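import Vale.Agent.P033.Alt

open Polynomial Finset

namespace Vale.Agent.P033

theorem four_dvd_sum {R : Type*} [CommRing R] {I : R} (hI : I ^ 2 = -1) (W : R[X]) :
    (4 : R) ∣ W.eval 1 + W.eval I + W.eval (-1) + W.eval (-I) := by
  induction W using Polynomial.induction_on' with
  | add p q hp hq =>
    simp only [eval_add]
    have := dvd_add hp hq
    convert this using 1
    ring
  | monomial j a =>
    simp only [eval_monomial]
    rcases Nat.even_or_odd' j with ⟨k, rfl | rfl⟩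
    · have h1 : (-I) ^ (2 * k) = (-1) ^ k := by rw [pow_mul, neg_sq, hI]
      have h2 : I ^ (2 * k) = (-1) ^ k := by rw [pow_mul, hI]
      have h3 : (-1 : R) ^ (2 * k) = 1 := by rw [pow_mul]; simp
      rw [h1, h2, h3, one_pow]
      rcases neg_one_pow_eq_or R k with h | h
      · exact ⟨a, by rw [h]; ring⟩
      · exact ⟨0, by rw [h]; ring⟩
    · have h1 : (-I) ^ (2 * k + 1) = - I ^ (2 * k + 1) := Odd.neg_pow ⟨k, rfl⟩ I
      have h3 : (-1 : R) ^ (2 * k + 1) = -1 := Odd.neg_one_pow ⟨k, rfl⟩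
      rw [h1, h3, one_pow]
      exact ⟨0, by ring⟩

theorem map_aeval_int {R S : Type*} [CommRing R] [CommRing S] [Algebra ℤ R] [Algebra ℤ S]
    (φ : R →+* S) (x : R) (g : ℤ[X]) : φ (aeval x g) = aeval (φ x) g := by
  rw [aeval_def, aeval_def, hom_eval₂]
  congr 1
  exact RingHom.ext_int _ _

section

variable {n u : ℕ} {f D : ℤ[X]} {L : Type*} [Field L]

theorem coe_aeval (V : ValuationSubring L) (x : V) (g : ℤ[X]) :
    ((aeval x g : V) : L) = aeval (x : L) g :=
  map_aeval_int V.subtype x g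

theorem Row.exists_poly (H : Row n u f D) {ζ : ℕ → L}
    (hζ : ∀ p ∈ u.primeFactors, IsPrimitiveRoot (ζ p) p) (V : ValuationSubring L)
    {S : Finset ℕ} (hS : S ⊆ u.primeFactors) (hne : S.Nonempty) :
    ∃ W : V[X], ∀ t : V, t ^ 4 = 1 → aeval (pt ζ S (t : L))⁻¹ f = -2 * (W.eval t : V) := by
  have hc : ((pt ζ S 1)⁻¹) ^ n = 1 := by rw [inv_pow, H.pt_pow hζ hS (one_pow n), inv_one]
  have hcV : (pt ζ S 1)⁻¹ ∈ V := V.mem_of_valuation_le_one _ (val_root _ H.n_ne hc).le
  obtain ⟨a, ha⟩ : ∃ a : ℕ, ∀ t : L, t ^ 4 = 1 → (t ^ ((-1 : ℤ) ^ S.card))⁻¹ = t ^ a := by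
    rcases neg_one_pow_eq_or ℤ S.card with h | h
    · refine ⟨3, fun t ht => ?_⟩
      rw [h, zpow_one, inv_eq_pow (by norm_num) ht]
    · refine ⟨1, fun t _ => ?_⟩
      rw [h, zpow_neg, zpow_one, inv_inv, pow_one]
  refine ⟨aeval (X ^ a * C (⟨_, hcV⟩ : V)) D, fun t ht => ?_⟩
  have ht' : (t : L) ^ 4 = 1 := by
    have := congrArg (fun x : V => (x : L)) ht
    simpa using this
  have hw := H.pt_pow hζ hS (H.pow_n ht')
  have hne1 : (pt ζ S (t : L))⁻¹ ≠ 1 := by
    rw [Ne, inv_eq_one]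
    intro h
    apply H.base_ne_one hζ hS hne ht'
    unfold pt at h
    rcases neg_one_pow_eq_or ℤ S.card with h' | h'
    · rwa [h', zpow_one] at h
    · rwa [h', zpow_neg, zpow_one, inv_eq_one] at h
  rw [H.eval_ne_one (by rw [inv_pow, hw, inv_one]) hne1]
  congr 1
  have h1 : (aeval (X ^ a * C (⟨_, hcV⟩ : V)) D).eval t
      = aeval (t ^ a * (⟨_, hcV⟩ : V)) D := by
    have := map_aeval_int (evalRingHom t) (X ^ a * C (⟨_, hcV⟩ : V)) D
    rw [mul_comm (t ^ a)]
    simpa using this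
  rw [h1, coe_aeval, pt_split ζ S t, mul_inv, ha _ ht']
  simp

end

theorem Row.u_eq_one_of {n u : ℕ} {f D : ℤ[X]} {L : Type*} [Field L] [NumberField L]
    (H : Row n u f D) {ζ : ℕ → L} (hζ : ∀ p ∈ u.primeFactors, IsPrimitiveRoot (ζ p) p)
    {I : L} (hI : I ^ 2 = -1) : u = 1 := by
  by_contra hu1
  obtain ⟨V, hV⟩ := exists_val_lt_one (L := L) 2 one_lt_two
  have hV2 : V.valuation (2 : L) < 1 := by simpa using hV
  have hu := H.val_u V hV2
  have hI4 : I ^ 4 = 1 := by
    rw [show 4 = 2 * 2 from rfl, pow_mul, hI]; norm_num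
  have hIV : I ∈ V := V.mem_of_valuation_le_one _ (val_root _ (by norm_num) hI4).le
  set I' : V := ⟨I, hIV⟩ with hI'
  have hI'2 : I' ^ 2 = -1 := Subtype.ext (by simpa using hI)
  set P := u.primeFactors.powerset.erase ∅ with hP
  have hex : ∀ S : Finset ℕ, ∃ W : V[X], S ∈ P → ∀ t : V, t ^ 4 = 1 →
      aeval (pt ζ S (t : L))⁻¹ f = -2 * (W.eval t : V) := by
    intro S
    by_cases hS : S ∈ P
    · obtain ⟨W, hW⟩ := H.exists_poly hζ V (mem_powerset.mp (mem_of_mem_erase hS))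
        (nonempty_iff_ne_empty.mpr (ne_of_mem_erase hS))
      exact ⟨W, fun _ => hW⟩
    · exact ⟨0, fun h => absurd h hS⟩
  choose W hW using hex
  have key : ∀ t : V, t ^ 4 = 1 → aeval (t : L) f * (n : L) ^ P.card
      = alt f ζ u.primeFactors 1 * (-2) ^ P.card * ((∏ S ∈ P, W S).eval t : V) := by
    intro t ht
    have ht' : (t : L) ^ 4 = 1 := by
      have := congrArg (fun x : V => (x : L)) ht
      simpa using this
    rw [← H.alt_const hu1 hζ ht']
    unfold alt
    rw [← mul_prod_erase _ _ (empty_mem_powerset _), ← hP]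
    have h0 : pt ζ ∅ (t : L) = t := by simp [pt]
    rw [h0, mul_assoc, mul_assoc]
    congr 1
    rw [eval_prod, ← prod_const, ← prod_const]
    push_cast
    rw [← prod_mul_distrib, ← prod_mul_distrib]
    apply prod_congr rfl
    intro S hS
    rw [← hW S hS t ht, spec H.n_ne H.hf
      (H.pt_pow hζ (mem_powerset.mp (mem_of_mem_erase hS)) (H.pow_n ht'))]
    simp
  have k1 := key 1 (one_pow 4)
  have k2 := key I' (by rw [show 4 = 2 * 2 from rfl, pow_mul, hI'2]; norm_num)
  have k3 := key (-1) (by norm_num)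
  have k4 := key (-I') (by rw [show 4 = 2 * 2 from rfl, pow_mul, neg_sq, hI'2]; norm_num)
  obtain ⟨c, hc⟩ := four_dvd_sum hI'2 (∏ S ∈ P, W S)
  obtain ⟨d, hd⟩ := four_dvd_sum hI'2 (D.map (algebraMap ℤ V))
  simp only [eval_map_algebraMap] at hd
  have hcL := congrArg (fun x : V => (x : L)) hc
  have hdL := congrArg (fun x : V => (x : L)) hd
  simp only [AddMemClass.coe_add, coe_aeval, MulMemClass.coe_mul] at hcL hdL
  have h4 : ((4 : V) : L) = 4 := rfl
  rw [h4] at hcL hdL
  have hI1 : I ≠ 1 := by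
    intro h; rw [h] at hI; norm_num at hI
  have hI2 : -I ≠ 1 := by
    intro h
    have : I = -1 := by rw [← h, neg_neg]
    rw [this] at hI; norm_num at hI
  have e1 : aeval ((1 : V) : L) f = n - 2 * aeval ((1 : V) : L) D := by
    rw [H.eval_eq]; simp
  have e2 : aeval (I' : L) f = - 2 * aeval (I' : L) D := H.eval_ne_one (H.pow_n hI4) hI1
  have e3 : aeval ((-1 : V) : L) f = - 2 * aeval ((-1 : V) : L) D :=
    H.eval_ne_one (H.pow_n (by push_cast; norm_num)) (by push_cast; norm_num)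
  have e4 : aeval ((-I' : V) : L) f = - 2 * aeval ((-I' : V) : L) D :=
    H.eval_ne_one (H.pow_n (by
      show (-I) ^ 4 = 1
      rw [Even.neg_pow (by decide), hI4])) hI2
  have main : ((n : L) - 2 ^ 3 * d) * (n : L) ^ P.card
      = alt f ζ u.primeFactors 1 * (-2) ^ P.card * (2 ^ 2 * c) := by
    rw [e1] at k1
    rw [e2] at k2
    rw [e3] at k3
    rw [e4] at k4
    linear_combination k1 + k2 + k3 + k4
      + (alt f ζ u.primeFactors 1 * (-2) ^ P.card) * hcL + 2 * (n : L) ^ P.card * hdL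
  have hv := congrArg V.valuation main
  have hn : V.valuation (n : L) = V.valuation (2 : L) ^ 2 := by rw [H.val_n, hu]; simp
  have hpos := val_two_pos V
  have hlt : V.valuation (2 ^ 3 * (d : L)) < V.valuation (n : L) := by
    rw [hn, map_mul, map_pow]
    calc V.valuation (2 : L) ^ 3 * V.valuation (d : L) ≤ V.valuation (2 : L) ^ 3 :=
          mul_le_of_le_one_right' (V.valuation_le_one d)
      _ < V.valuation (2 : L) ^ 2 := pow_lt_pow_right_of_lt_one₀ hpos hV2 (by norm_num)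
  have hcard : u.primeFactors.powerset.card = P.card + 1 := by
    rw [hP, card_erase_add_one (empty_mem_powerset _)]
  rw [map_mul, V.valuation.map_sub_eq_of_lt_left hlt, map_pow, hn, map_mul, map_mul, map_mul,
    H.alt_val hζ V hu (one_pow n), hcard, map_pow, map_pow, V.valuation.map_neg] at hv
  have hle : V.valuation (2 : L) ^ (2 + 2 * P.card) ≤ V.valuation (2 : L) ^ (2 * P.card + 3) := by
    calc V.valuation (2 : L) ^ (2 + 2 * P.card)
        = V.valuation (2 : L) ^ 2 * (V.valuation (2 : L) ^ 2) ^ P.card := by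
          rw [pow_add, pow_mul]
      _ = V.valuation (2 : L) ^ (2 * P.card + 3) * V.valuation (c : L) := by
          rw [hv, ← pow_add, ← mul_assoc, ← pow_add]
          congr 2
          ring
      _ ≤ _ := mul_le_of_le_one_right' (V.valuation_le_one c)
  exact absurd hle (not_le.mpr (pow_lt_pow_right_of_lt_one₀ hpos hV2 (by omega)))

theorem Row.u_eq_one {n u : ℕ} {f D : ℤ[X]} (H : Row n u f D) : u = 1 := by
  have : NeZero n := ⟨H.n_ne⟩
  have : NeZero (n : ℚ) := ⟨by exact_mod_cast H.n_ne⟩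
  obtain ⟨ω, hω⟩ := (CyclotomicField.isCyclotomicExtension n ℚ).exists_isPrimitiveRoot
      (Set.mem_singleton n) (NeZero.ne n)
  have hζ : ∀ p ∈ u.primeFactors, IsPrimitiveRoot (ω ^ (n / p)) p := by
    intro p hp
    obtain ⟨c, hc⟩ := Nat.dvd_of_mem_primeFactors hp
    have hpn : p ∣ n := ⟨4 * c * u, by rw [H.hn, pow_two]; nth_rewrite 1 [hc]; ring⟩
    exact hω.pow (Nat.pos_of_ne_zero H.n_ne) (Nat.div_mul_cancel hpn).symm
  have h4 : IsPrimitiveRoot (ω ^ (u ^ 2)) 4 :=
    hω.pow (Nat.pos_of_ne_zero H.n_ne) (by rw [H.hn]; ring)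
  have h2 : IsPrimitiveRoot ((ω ^ (u ^ 2)) ^ 2) 2 := h4.pow (by norm_num) (by norm_num)
  exact H.u_eq_one_of (ζ := fun p => ω ^ (n / p)) hζ h2.eq_neg_one_of_two_right

end Vale.Agent.P033
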