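import Vale.Agent.P033.Val

open Polynomial Finset

namespace Vale.Agent.P033

theorem one_add_pow_prime_pow {R : Type*} [CommRing R] {p : ℕ} (hp : p.Prime) {π r : R}
    (hπ : π ^ p = p * π * r) (s : R) (N : ℕ) :
    ∃ q : R, (1 + π * s) ^ (p ^ N) = 1 + (p : R) ^ N * π * q := by
  induction N with
  | zero => exact ⟨s, by simp⟩
  | succ N ih =>
    obtain ⟨q, hq⟩ := ih
    obtain ⟨r', hr'⟩ := exists_add_pow_prime_eq hp (1 : R) ((p : R) ^ N * π * q)
    obtain ⟨k, hk⟩ : ∃ k, p = k + 1 := ⟨p - 1, by have := hp.pos; omega⟩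
    refine ⟨((p : R) ^ N) ^ k * r * q ^ p + q * r', ?_⟩
    rw [pow_succ, pow_mul, hq, hr', mul_pow, mul_pow, hπ]
    have : ((p : R) ^ N) ^ p = ((p : R) ^ N) ^ k * (p : R) ^ N := by
      conv_lhs => rw [hk, pow_succ, ← hk]
    rw [this]
    ring

/-- spectral consequence of the divisibility hypothesis -/
theorem aeval_mul_of_dvd {R : Type*} [CommRing R] [Algebra ℤ R] {f : ℤ[X]} {n : ℕ} {w : ℤ}
    (hf : (X ^ n - 1 : ℤ[X]) ∣ f * f.comp (X ^ (n - 1)) - C w) (y : R) :
    y ^ n - 1 ∣ aeval y f * aeval (y ^ (n - 1)) f - (w : R) := by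
  have := map_dvd (aeval y : ℤ[X] →ₐ[ℤ] R) hf
  simpa [aeval_comp] using this

theorem inv_eq_pow {L : Type*} [Field L] {z : L} {n : ℕ} (hn : n ≠ 0) (hz : z ^ n = 1) :
    z⁻¹ = z ^ (n - 1) := by
  apply inv_eq_of_mul_eq_one_right
  rw [← pow_succ', Nat.sub_add_cancel (Nat.pos_of_ne_zero hn), hz]

theorem spec {L : Type*} [Field L] {f : ℤ[X]} {n : ℕ} {w : ℤ} (hn : n ≠ 0)
    (hf : (X ^ n - 1 : ℤ[X]) ∣ f * f.comp (X ^ (n - 1)) - C w) {z : L} (hz : z ^ n = 1) :
    aeval z f * aeval z⁻¹ f = (w : L) := by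
  have := aeval_mul_of_dvd hf z
  rw [hz, sub_self, zero_dvd_iff, sub_eq_zero] at this
  rw [inv_eq_pow hn hz, this]

/-- The key local lemma. -/
theorem ratio {L : Type*} [Field L] [CharZero L] (V : ValuationSubring L) {f : ℤ[X]} {n : ℕ}
    (hn : n ≠ 0) (hf : (X ^ n - 1 : ℤ[X]) ∣ f * f.comp (X ^ (n - 1)) - C (n : ℤ))
    {p : ℕ} (hp : p.Prime) (hv : V.valuation (p : L) < 1) {z ζ : L} (hz : z ^ n = 1)
    (hζ : ζ ^ p = 1) :
    V.valuation (aeval (z * ζ) f / aeval z f - 1) < 1 := by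
  apply one_div_of_lt
  set v := V.valuation with hvdef
  have hzV : z ∈ V := V.mem_of_valuation_le_one z (val_root v hn hz).le
  have hζV : ζ ∈ V := V.mem_of_valuation_le_one ζ (val_root v hp.ne_zero hζ).le
  set z' : V := ⟨z, hzV⟩ with hz'
  set ζ' : V := ⟨ζ, hζV⟩ with hζ'
  have hz'n : z' ^ n = 1 := Subtype.ext (by simpa using hz)
  have hζ'p : ζ' ^ p = 1 := Subtype.ext (by simpa using hζ)
  set π : V := ζ' - 1 with hπ
  obtain ⟨r0, hr0⟩ := exists_add_pow_prime_eq hp (1 : V) π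
  have hπp : π ^ p = p * π * (-r0) := by
    have h1 : (1 : V) + π = ζ' := by rw [hπ]; ring
    rw [h1, hζ'p] at hr0
    linear_combination (-1 : V) * hr0
  have hπv : v (π : L) < 1 := by
    have h1 : v (π : L) ^ p < 1 := by
      rw [← map_pow]
      have : (π : L) ^ p = p * (π * (-r0) : V) := by
        have := congrArg (fun x : V => (x : L)) hπp
        simpa [mul_assoc] using this
      rw [this, map_mul]
      exact mul_lt_one_of_lt_of_le hv (V.valuation_le_one _)
    exact (pow_lt_one_iff_of_nonneg zero_le hp.ne_zero).mp h1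
  obtain ⟨N, m, hpm, hnm⟩ := Nat.exists_eq_pow_mul_and_not_dvd hn p hp.ne_one
  have hm : v (m : L) = 1 := val_nat_eq_one v hv ((Nat.Prime.coprime_iff_not_dvd hp).mpr hpm)
  have hCπ : (C π : V[X]) ^ p = p * C π * C (-r0) := by
    rw [← C_pow, hπp, C_mul, C_mul, map_natCast]
  obtain ⟨q, hq⟩ := one_add_pow_prime_pow hp hCπ X N
  set y : V[X] := C z' * (1 + C π * X) with hy
  have hyn : ((p : V[X]) ^ N * C π) ∣ y ^ n - 1 := by
    have h1 : y ^ n = ((1 + C π * X) ^ (p ^ N)) ^ m := by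
      rw [hy, mul_pow, ← C_pow, hz'n, C_1, one_mul, ← pow_mul, ← hnm]
    rw [h1, hq]
    have h2 := sub_dvd_pow_sub_pow (1 + (p : V[X]) ^ N * C π * q) 1 m
    rw [one_pow, add_sub_cancel_left] at h2
    exact (Dvd.intro q rfl).trans h2
  obtain ⟨Q, hQ⟩ := hyn.trans (aeval_mul_of_dvd hf y)
  set A : L[X] := (aeval y f).map (algebraMap V L) with hA
  set B : L[X] := (aeval (y ^ (n - 1)) f).map (algebraMap V L) with hB
  have hev : ∀ (t : L) (g : V[X]), ((aeval g f).map (algebraMap V L)).eval t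
      = aeval ((g.map (algebraMap V L)).eval t) f := by
    intro t g
    have := Polynomial.aeval_algHom_apply
      ((evalRingHom t).comp (mapRingHom (algebraMap V L))).toIntAlgHom g f
    simpa using this.symm
  have hA1 : A.eval 1 = aeval (z * ζ) f := by
    rw [hA, hev]
    congr 1
    simp [hy, hπ, hz', hζ']
  have hA0 : A.eval 0 = aeval z f := by
    rw [hA, hev]
    congr 1
    simp [hy, hz']
  have hB0 : B.eval 0 = aeval z⁻¹ f := by
    rw [hB, hev, inv_eq_pow hn hz]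
    congr 1
    simp [hy, hz']
  have hprod : A.coeff 0 * B.coeff 0 = (n : L) := by
    rw [coeff_zero_eq_eval_zero, coeff_zero_eq_eval_zero, hA0, hB0, spec hn hf hz]
    simp
  have hn0 : (n : L) ≠ 0 := by exact_mod_cast hn
  have hAB : A * B = C (n : L) + C ((p : L) ^ N * π) * Q.map (algebraMap V L) := by
    have h1 : aeval y f * aeval (y ^ (n - 1)) f = (n : V[X]) + (p : V[X]) ^ N * C π * Q := by
      rw [← hQ]; simp
    rw [hA, hB, ← Polynomial.map_mul, h1]
    simp
  rw [← hA1, ← hA0]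
  apply newton_eval v A B
  · intro h; rw [h, zero_mul] at hprod; exact hn0 hprod.symm
  · intro h; rw [h, mul_zero] at hprod; exact hn0 hprod.symm
  · intro k hk
    rw [hprod, hAB, coeff_add, coeff_C_of_ne_zero (ne_of_gt hk), zero_add, coeff_C_mul, coeff_map,
      hnm]
    push_cast
    rw [map_mul, map_mul, map_mul, hm, mul_one, mul_assoc]
    have hp0 : (p : L) ≠ 0 := by exact_mod_cast hp.ne_zero
    have hpos : 0 < v ((p : L) ^ N) := by
      rw [zero_lt_iff]; simp [hp0]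
    have hlt : v (π : L) * v (algebraMap V L (Q.coeff k)) < 1 :=
      mul_lt_one_of_lt_of_le hπv (V.valuation_le_one _)
    exact mul_lt_of_lt_one_right hpos hlt

end Vale.Agent.P033
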