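import Mathlib

open Polynomial Finset

namespace Vale.Agent.P033

section general

variable {L : Type*} [Field L]

theorem isIntegral_of_forall_mem (x : L) (h : ∀ V : ValuationSubring L, x ∈ V) :
    IsIntegral ℤ x := by
  by_contra hx
  have hx' : x ∉ (integralClosure ℤ L).toSubring := hx
  obtain ⟨V, -, hV⟩ := Subring.exists_le_valuationSubring_of_isIntegrallyClosedIn hx'
  exact hV (h V)

theorem exists_val_lt_one [CharZero L] (p : ℕ) (hp : 1 < p) :
    ∃ V : ValuationSubring L, V.valuation (p : L) < 1 := by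
  by_contra hne
  push Not at hne
  have hp0 : (p : L) ≠ 0 := by exact_mod_cast (by omega : p ≠ 0)
  have hint : IsIntegral ℤ ((p : L)⁻¹) := by
    apply isIntegral_of_forall_mem
    intro V
    rw [← V.valuation_le_one_iff, map_inv₀]
    exact inv_le_one_of_one_le₀ (hne V)
  have h1 : ((p : L)⁻¹) = algebraMap ℚ L ((p : ℚ)⁻¹) := by simp
  rw [h1, isIntegral_algebraMap_iff (algebraMap ℚ L).injective] at hint
  obtain ⟨y, hy⟩ := IsIntegrallyClosed.isIntegral_iff.mp hint
  have hp1 : (p : ℚ) ≠ 0 := by exact_mod_cast (by omega : p ≠ 0)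
  have h2 : (y : ℚ) * p = 1 := by
    have : (y : ℚ) = (p : ℚ)⁻¹ := by simpa using hy
    rw [this, inv_mul_cancel₀ hp1]
  have h3 : y * p = 1 := by exact_mod_cast h2
  have h4 : (p : ℤ) ∣ 1 := Dvd.intro_left y h3
  have h5 : (p : ℤ) ≤ 1 := Int.le_of_dvd one_pos h4
  omega

variable {Γ : Type*} [LinearOrderedCommGroupWithZero Γ]

theorem exists_top_index (v : Valuation L Γ) (A : L[X]) (h0 : A.coeff 0 ≠ 0) :
    ∃ i0, (∀ i, v (A.coeff i) ≤ v (A.coeff i0)) ∧ ∀ i, i0 < i → v (A.coeff i) < v (A.coeff i0) := by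
  obtain ⟨i0, -, hmax⟩ := Finset.exists_max_image (range (A.natDegree + 1))
    (fun i => toLex (v (A.coeff i), i)) ⟨0, by simp⟩
  have hpos : 0 < v (A.coeff i0) := by
    have h1 := hmax 0 (by simp)
    have h2 : 0 < v (A.coeff 0) := by
      rw [zero_lt_iff]; simpa using h0
    rw [Prod.Lex.toLex_le_toLex] at h1
    rcases h1 with h1 | h1
    · exact h2.trans h1
    · exact lt_of_lt_of_eq h2 h1.1
  have key : ∀ i, v (A.coeff i) < v (A.coeff i0) ∨ (v (A.coeff i) = v (A.coeff i0) ∧ i ≤ i0) := by
    intro i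
    by_cases hi : i ∈ range (A.natDegree + 1)
    · have h1 := hmax i hi
      rw [Prod.Lex.toLex_le_toLex] at h1
      exact h1
    · left
      rw [coeff_eq_zero_of_natDegree_lt (by simpa using hi), map_zero]
      exact hpos
  refine ⟨i0, fun i => ?_, fun i hi => ?_⟩
  · rcases key i with h | h
    · exact h.le
    · exact h.1.le
  · rcases key i with h | h
    · exact h
    · omega

/-- If a product of two polynomials is dominated by its constant term, so is each factor. -/
theorem newton (v : Valuation L Γ) (A B : L[X]) (hA : A.coeff 0 ≠ 0) (hB : B.coeff 0 ≠ 0)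
    (h : ∀ k, 0 < k → v ((A * B).coeff k) < v (A.coeff 0 * B.coeff 0)) :
    ∀ i, 0 < i → v (A.coeff i) < v (A.coeff 0) := by
  obtain ⟨i0, hi1, hi2⟩ := exists_top_index v A hA
  obtain ⟨j0, hj1, hj2⟩ := exists_top_index v B hB
  have hApos : 0 < v (A.coeff i0) := lt_of_lt_of_le (by rw [zero_lt_iff]; simpa using hA) (hi1 0)
  have hBpos : 0 < v (B.coeff j0) := lt_of_lt_of_le (by rw [zero_lt_iff]; simpa using hB) (hj1 0)
  have hval : v ((A * B).coeff (i0 + j0)) = v (A.coeff i0 * B.coeff j0) := by
    rw [coeff_mul]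
    have := v.map_sum_eq_of_lt (s := antidiagonal (i0 + j0))
      (f := fun x : ℕ × ℕ => A.coeff x.1 * B.coeff x.2) (j := (i0, j0)) (by simp) (by
        rintro ⟨i, j⟩ hij
        simp only [mem_sdiff, Finset.HasAntidiagonal.mem_antidiagonal, mem_singleton, Prod.mk.injEq] at hij
        simp only [map_mul]
        rcases lt_trichotomy i0 i with hlt | heq | hgt
        · exact mul_lt_mul_of_lt_of_le_of_nonneg_of_pos (hi2 i hlt) (hj1 j) zero_le hBpos
        · exfalso; apply hij.2; omega
        · exact mul_lt_mul_of_le_of_lt_of_nonneg_of_pos (hi1 i) (hj2 j (by omega)) zero_le hApos)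
    exact this
  have hzero : i0 + j0 = 0 := by
    by_contra hne
    have h1 := h (i0 + j0) (by omega)
    rw [hval, map_mul, map_mul] at h1
    exact absurd h1 (not_lt.mpr (mul_le_mul' (hi1 0) (hj1 0)))
  have : i0 = 0 := by omega
  subst this
  exact hi2

theorem newton_eval (v : Valuation L Γ) (A B : L[X]) (hA : A.coeff 0 ≠ 0) (hB : B.coeff 0 ≠ 0)
    (h : ∀ k, 0 < k → v ((A * B).coeff k) < v (A.coeff 0 * B.coeff 0)) :
    v (A.eval 1 - A.eval 0) < v (A.eval 0) := by
  have h1 := newton v A B hA hB h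
  rw [← coeff_zero_eq_eval_zero, eval_eq_sum_range, sum_range_succ']
  simp only [one_pow, mul_one, add_sub_cancel_right]
  apply v.map_sum_lt
  · simpa using hA
  · intro i _
    exact h1 _ (Nat.succ_pos i)

/-! The congruence `x = 1` modulo the maximal ideal. -/

theorem one_val (v : Valuation L Γ) {x : L} (hx : v (x - 1) < 1) : v x = 1 := by
  have := v.map_one_add_of_lt hx
  simpa using this

theorem one_mul_one (v : Valuation L Γ) {x y : L} (hx : v (x - 1) < 1) (hy : v (y - 1) < 1) :
    v (x * y - 1) < 1 := by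
  have : x * y - 1 = x * (y - 1) + (x - 1) := by ring
  rw [this]
  apply v.map_add_lt _ hx
  rw [map_mul, one_val v hx, one_mul]
  exact hy

theorem one_inv (v : Valuation L Γ) {x : L} (hx : v (x - 1) < 1) : v (x⁻¹ - 1) < 1 := by
  have h1 := one_val v hx
  have hx0 : x ≠ 0 := by
    rintro rfl
    simp at h1
  have : x⁻¹ - 1 = x⁻¹ * (-(x - 1)) := by field_simp; ring
  rw [this, map_mul, map_inv₀, h1, v.map_neg]
  simpa using hx

theorem one_div_one (v : Valuation L Γ) {x y : L} (hx : v (x - 1) < 1) (hy : v (y - 1) < 1) :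
    v (x / y - 1) < 1 := by
  rw [div_eq_mul_inv]
  exact one_mul_one v hx (one_inv v hy)

theorem one_prod (v : Valuation L Γ) {ι : Type*} (s : Finset ι) (f : ι → L)
    (h : ∀ i ∈ s, v (f i - 1) < 1) : v (∏ i ∈ s, f i - 1) < 1 := by
  classical
  induction s using Finset.induction_on with
  | empty => simp
  | insert a s ha ih =>
    rw [prod_insert ha]
    exact one_mul_one v (h a (by simp)) (ih fun i hi => h i (by simp [hi]))

theorem one_pow_one (v : Valuation L Γ) {x : L} (hx : v (x - 1) < 1) (k : ℕ) :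
    v (x ^ k - 1) < 1 := by
  have := one_prod v (range k) (fun _ => x) (fun _ _ => hx)
  simpa using this

theorem one_div_of_lt (v : Valuation L Γ) {x y : L} (h : v (x - y) < v y) :
    v (x / y - 1) < 1 := by
  have hy : v y ≠ 0 := ne_of_gt (lt_of_le_of_lt zero_le h)
  have hy0 : y ≠ 0 := by
    rintro rfl
    simp at hy
  have : x / y - 1 = (x - y) / y := by field_simp
  rw [this, map_div₀, div_lt_one₀ (zero_lt_iff.mpr hy)]
  exact h

theorem val_int_le (v : Valuation L Γ) (a : ℤ) : v (a : L) ≤ 1 := by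
  induction a using Int.induction_on with
  | zero => simp
  | succ k ih => push_cast at ih ⊢; exact v.map_add_le ih (by simp)
  | pred k ih => push_cast at ih ⊢; exact v.map_sub_le ih (by simp)

theorem val_nat_le (v : Valuation L Γ) (a : ℕ) : v (a : L) ≤ 1 := by
  have := val_int_le v (a : ℤ)
  simpa using this

theorem val_nat_eq_one (v : Valuation L Γ) {p a : ℕ} (hv : v (p : L) < 1) (h : Nat.Coprime p a) :
    v (a : L) = 1 := by
  by_contra hne
  have hlt : v (a : L) < 1 := lt_of_le_of_ne (val_nat_le v a) hne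
  have hb : ((1 : ℤ) : L) = ((p * Nat.gcdA p a + a * Nat.gcdB p a : ℤ) : L) := by
    rw [← Nat.gcd_eq_gcd_ab, h.gcd_eq_one]; simp
  push_cast at hb
  have : v (1 : L) < 1 := by
    rw [hb]
    apply v.map_add_lt
    · rw [map_mul]
      exact mul_lt_one_of_lt_of_le hv (val_int_le v _)
    · rw [map_mul]
      exact mul_lt_one_of_lt_of_le hlt (val_int_le v _)
  simp at this

theorem val_root (v : Valuation L Γ) {z : L} {n : ℕ} (hn : n ≠ 0) (hz : z ^ n = 1) : v z = 1 := by
  have : v z ^ n = 1 := by rw [← map_pow, hz, map_one]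
  exact (pow_eq_one_iff_of_nonneg zero_le hn).mp this

/-- A root of unity of order prime to the residue characteristic that is congruent to one
equals one. -/
theorem eq_one_of_val (v : Valuation L Γ) {x : L} {m : ℕ} (hx : v (x - 1) < 1) (hm : x ^ m = 1)
    (hv : v (m : L) = 1) : x = 1 := by
  by_contra hne
  have h1 : (∑ i ∈ range m, x ^ i) = 0 := by
    have := geom_sum_mul x m
    rw [hm, sub_self] at this
    exact (mul_eq_zero.mp this).resolve_right (sub_ne_zero.mpr hne)
  have h2 : v (∑ i ∈ range m, (x ^ i - 1)) < 1 :=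
    v.map_sum_lt one_ne_zero fun i _ => one_pow_one v hx i
  rw [sum_sub_distrib, h1] at h2
  simp only [sum_const, card_range, nsmul_eq_mul, mul_one, zero_sub, Valuation.map_neg] at h2
  exact absurd hv (ne_of_lt h2)

end general

end Vale.Agent.P033
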